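import Crest.Agent.N334.Sw.Exp
import Crest.Agent.N334.I.Mix
import Crest.Agent.N334.Sw.Step

-- ▼ part N334/Sw/Flow
section

/-!
# Row 334, S0519 SWITCH (helper45): two-state interpolation of labelled ensembles, Gronwall
-/

set_option autoImplicit false

open MeasureTheory Finset
open scoped ENNReal

noncomputable section

namespace Crest.Agent.N334.Sw

open G I

theorem isProb_mix {p : ℝ} (h0 : 0 ≤ p) (h1 : p ≤ 1) (μ₀ μ₁ : Measure ℂ) [IsProbabilityMeasure μ₀]
    [IsProbabilityMeasure μ₁] : IsProbabilityMeasure (mix p μ₀ μ₁) := ⟨by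
  simp only [mix, Measure.add_apply, Measure.smul_apply, measure_univ, smul_eq_mul, mul_one]
  rw [← ENNReal.ofReal_add (sub_nonneg.2 h1) h0]; simp⟩

theorem mix_zero (μ₀ μ₁ : Measure ℂ) : mix 0 μ₀ μ₁ = μ₀ := by simp [mix]

theorem mix_one (μ₀ μ₁ : Measure ℂ) : mix 1 μ₀ μ₁ = μ₁ := by simp [mix]

theorem mix_self {p : ℝ} (h0 : 0 ≤ p) (h1 : p ≤ 1) (μ : Measure ℂ) : mix p μ μ = μ := by
  rw [mix, ← add_smul, ← ENNReal.ofReal_add (sub_nonneg.2 h1) h0]; simp

theorem isProb_update {V : Type} [DecidableEq V] (μ : V → Measure ℂ)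
    [∀ x, IsProbabilityMeasure (μ x)] (y : V) (ν : Measure ℂ) [IsProbabilityMeasure ν] (x : V) :
    IsProbabilityMeasure (Function.update μ y ν x) := by
  rcases eq_or_ne x y with rfl | hx
  · rw [Function.update_self]; infer_instance
  · rw [Function.update_of_ne hx]; infer_instance

/-- weight of the state `σ` -/
def wg (σ : Bool) (p : ℝ) : ℝ := if σ then p else 1 - p

section ens
variable {V : Type} [Fintype V] [DecidableEq V] {h : ℝ} (lab : Lab V h)

theorem ens_mix (hh : 0 < h) (η : ℝ) (μ₀ μ₁ : V → Measure ℂ) [∀ x, IsProbabilityMeasure (μ₀ x)]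
    [∀ x, IsProbabilityMeasure (μ₁ x)] {q : V → ℝ} (hq : ∀ x, 0 ≤ q x ∧ q x ≤ 1) :
    lab.ens η (fun x => mix (q x) (μ₀ x) (μ₁ x)) = ∑ σ : V → Bool,
      ENNReal.ofReal (∏ x, wg (σ x) (q x)) • lab.ens η fun x => if σ x then μ₁ x else μ₀ x := by
  have hw : ∀ x k, 0 ≤ wg k (q x) := fun x k => by
    cases k
    · exact sub_nonneg.2 (hq x).2
    · exact (hq x).1
  have hp : ∀ (k : Bool) x, IsProbabilityMeasure (if k then μ₁ x else μ₀ x) := fun k x => by
    cases k <;> simp only [Bool.false_eq_true, if_false, if_true] <;> infer_instance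
  simp only [Lab.ens, smul_sum]
  rw [sum_comm]
  refine sum_congr rfl fun l _ => ?_
  have hf : ∀ x (k : Bool), IsProbabilityMeasure
      (lab.law η (fun x => if k then μ₁ x else μ₀ x) l x) := fun x k => by
    have := hp k
    exact lab.isProb_law hh η _ l x
  have h1 := pi_mix (fun x k => ENNReal.ofReal (wg k (q x))) (fun _ _ => ENNReal.ofReal_ne_top)
    fun x k => lab.law η (fun x => if k then μ₁ x else μ₀ x) l x
  have h2 : lab.law η (fun x => mix (q x) (μ₀ x) (μ₁ x)) l = fun x => ∑ k : Bool,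
      ENNReal.ofReal (wg k (q x)) • lab.law η (fun x => if k then μ₁ x else μ₀ x) l x := by
    funext x
    rw [Fintype.sum_bool]
    by_cases hx : lab.act l x
    · simp only [lab.law_of_act _ _ hx, mix, wg]
      simp [add_comm]
    · simp only [lab.law_of_not_act _ _ hx]
      rw [← add_smul, ← ENNReal.ofReal_add (hw x _) (hw x _)]
      simp [wg]
  rw [h2, h1, smul_sum]
  refine sum_congr rfl fun σ _ => ?_
  rw [smul_comm, ENNReal.ofReal_prod_of_nonneg fun x _ => hw x _]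
  congr 3

theorem integral_ens_mix (hh : 0 < h) (η : ℝ) (μ₀ μ₁ : V → Measure ℂ)
    [∀ x, IsProbabilityMeasure (μ₀ x)] [∀ x, IsProbabilityMeasure (μ₁ x)] {q : V → ℝ}
    (hq : ∀ x, 0 ≤ q x ∧ q x ≤ 1) {Ψ : (V → ℂ) → ℝ} (hΨ : BM Ψ) :
    ∫ w, Ψ w ∂lab.ens η (fun x => mix (q x) (μ₀ x) (μ₁ x)) = ∑ σ : V → Bool,
      (∏ x, wg (σ x) (q x)) * ∫ w, Ψ w ∂lab.ens η fun x => if σ x then μ₁ x else μ₀ x := by
  have hw : ∀ x k, 0 ≤ wg k (q x) := fun x k => by
    cases k
    · exact sub_nonneg.2 (hq x).2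
    · exact (hq x).1
  have hp : ∀ (σ : V → Bool) x, IsProbabilityMeasure (if σ x then μ₁ x else μ₀ x) := fun σ x => by
    split_ifs <;> infer_instance
  rw [ens_mix lab hh η μ₀ μ₁ hq, integral_finsetSum_measure fun σ _ => ?_]
  · refine sum_congr rfl fun σ _ => ?_
    rw [integral_smul_measure, ENNReal.toReal_ofReal (prod_nonneg fun x _ => hw x _), smul_eq_mul]
  · have := hp σ
    have := lab.isProb_ens hh η fun x => if σ x then μ₁ x else μ₀ x
    exact (hΨ.integrable _).smul_measure ENNReal.ofReal_ne_top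

theorem update_mix (μ₀ μ₁ : V → Measure ℂ) (p t : ℝ) (y : V) :
    (fun x => mix (Function.update (fun _ => p) y t x) (μ₀ x) (μ₁ x)) =
      Function.update (fun x => mix p (μ₀ x) (μ₁ x)) y (mix t (μ₀ y) (μ₁ y)) := by
  funext x
  rcases eq_or_ne x y with rfl | hx
  · simp
  · simp [hx]

omit [Fintype V] in
theorem prod_update_wg [Fintype V] (σ : V → Bool) (p t : ℝ) (y : V) :
    ∏ x, wg (σ x) (Function.update (fun _ => p) y t x) =
      (∏ x ∈ univ.erase y, wg (σ x) p) * wg (σ y) t := by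
  rw [← prod_erase_mul _ _ (mem_univ y), Function.update_self]
  congr 1
  exact prod_congr rfl fun x hx => by rw [Function.update_of_ne (ne_of_mem_erase hx)]

/-- **Gronwall along a two-state interpolation.** -/
theorem flow (hh : 0 < h) (η : ℝ) (μ₀ μ₁ : V → Measure ℂ) [∀ x, IsProbabilityMeasure (μ₀ x)]
    [∀ x, IsProbabilityMeasure (μ₁ x)] {Ψ : (V → ℂ) → ℝ} (hΨ : BM Ψ) {a b : ℝ} (ha : 0 ≤ a)
    (hab : a ≤ b) (hb : b ≤ 1) {R r : ℝ → ℝ} (hR : ContinuousOn R (Set.Icc a b))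
    (hR' : ∀ p ∈ Set.Ioo a b, HasDerivAt R (r p) p)
    (H : ∀ p ∈ Set.Ioo a b, ∑ y,
      (∫ w, Ψ w ∂lab.ens η (Function.update (fun x => mix p (μ₀ x) (μ₁ x)) y (μ₁ y)) -
        ∫ w, Ψ w ∂lab.ens η (Function.update (fun x => mix p (μ₀ x) (μ₁ x)) y (μ₀ y))) ≤
      r p * ∫ w, Ψ w ∂lab.ens η fun x => mix p (μ₀ x) (μ₁ x)) :
    ∫ w, Ψ w ∂lab.ens η (fun x => mix b (μ₀ x) (μ₁ x)) ≤
      Real.exp (R b - R a) * ∫ w, Ψ w ∂lab.ens η fun x => mix a (μ₀ x) (μ₁ x) := by
  set e : (V → Bool) → ℝ := fun σ => ∫ w, Ψ w ∂lab.ens η fun x => if σ x then μ₁ x else μ₀ x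
    with he
  set g : ℝ → ℝ := fun p => ∑ σ : V → Bool, (∏ x, wg (σ x) p) * e σ with hg
  have hgE : ∀ p, 0 ≤ p → p ≤ 1 →
      ∫ w, Ψ w ∂lab.ens η (fun x => mix p (μ₀ x) (μ₁ x)) = g p := fun p h0 h1 =>
    integral_ens_mix lab hh η μ₀ μ₁ (q := fun _ => p) (fun _ => ⟨h0, h1⟩) hΨ
  have hup : ∀ p t y, 0 ≤ p → p ≤ 1 → 0 ≤ t → t ≤ 1 →
      ∫ w, Ψ w ∂lab.ens η (Function.update (fun x => mix p (μ₀ x) (μ₁ x)) y (mix t (μ₀ y) (μ₁ y))) =
        ∑ σ : V → Bool, (∏ x ∈ univ.erase y, wg (σ x) p) * wg (σ y) t * e σ := by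
    intro p t y h0 h1 h2 h3
    rw [← update_mix, integral_ens_mix lab hh η μ₀ μ₁ (fun x => ?_) hΨ]
    · simp only [prod_update_wg, he]
    · rcases eq_or_ne x y with rfl | hx
      · simp [h2, h3]
      · simp [hx, h0, h1]
  have hwd : ∀ (k : Bool) p, HasDerivAt (wg k) (wg k 1 - wg k 0) p := fun k p => by
    cases k
    · have : wg false = fun p => 1 - p := by funext p; simp [wg]
      rw [this]
      simpa using (hasDerivAt_id p).const_sub 1
    · have : wg true = fun p => p := by funext p; simp [wg]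
      rw [this]
      simpa using hasDerivAt_id' p
  have hgd : ∀ p, HasDerivAt g (∑ σ : V → Bool,
      (∑ y, (∏ x ∈ univ.erase y, wg (σ x) p) * (wg (σ y) 1 - wg (σ y) 0)) * e σ) p := fun p => by
    refine HasDerivAt.fun_sum fun σ _ => HasDerivAt.mul_const ?_ _
    simpa only [smul_eq_mul] using
      HasDerivAt.fun_finset_prod (u := univ) (f := fun x p => wg (σ x) p) fun x _ => hwd (σ x) p
  have hkey : ∀ p ∈ Set.Ioo a b, ∑ σ : V → Bool,
      (∑ y, (∏ x ∈ univ.erase y, wg (σ x) p) * (wg (σ y) 1 - wg (σ y) 0)) * e σ ≤ r p * g p := by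
    intro p hp
    have h0 : 0 ≤ p := ha.trans hp.1.le
    have h1 : p ≤ 1 := hp.2.le.trans hb
    have h2 := H p hp
    rw [hgE p h0 h1] at h2
    refine le_trans (le_of_eq ?_) h2
    simp only [sum_mul]
    rw [sum_comm]
    refine sum_congr rfl fun y _ => ?_
    have e1 := hup p 1 y h0 h1 zero_le_one le_rfl
    have e0 := hup p 0 y h0 h1 le_rfl zero_le_one
    rw [mix_one] at e1
    rw [mix_zero] at e0
    rw [e1, e0, ← sum_sub_distrib]
    exact sum_congr rfl fun σ _ => by ring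
  have hanti : AntitoneOn (fun p => Real.exp (-R p) * g p) (Set.Icc a b) := by
    refine antitoneOn_of_hasDerivWithinAt_nonpos (convex_Icc a b) (f' := fun p =>
      Real.exp (-R p) * -r p * g p + Real.exp (-R p) * ∑ σ : V → Bool,
      (∑ y, (∏ x ∈ univ.erase y, wg (σ x) p) * (wg (σ y) 1 - wg (σ y) 0)) * e σ) ?_ ?_ ?_
    · exact (hR.neg.rexp).mul fun p _ => (hgd p).continuousAt.continuousWithinAt
    · intro p hp
      rw [interior_Icc] at hp ⊢
      exact (((hR' p hp).neg.exp).mul (hgd p)).hasDerivWithinAt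
    · intro p hp
      rw [interior_Icc] at hp
      have := hkey p hp
      have h3 := Real.exp_pos (-R p)
      nlinarith
  have h4 := hanti ⟨le_rfl, hab⟩ ⟨hab, le_rfl⟩ hab
  rw [hgE b (ha.trans hab) hb, hgE a ha (hab.trans hb)]
  simp only at h4
  have h5 : g b = Real.exp (R b) * (Real.exp (-R b) * g b) := by
    rw [← mul_assoc, ← Real.exp_add]; simp
  rw [h5, sub_eq_add_neg, Real.exp_add, mul_assoc]
  exact mul_le_mul_of_nonneg_left h4 (Real.exp_pos _).le

/-- the ensemble is affine in each active law -/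
theorem integral_update_mix (hh : 0 < h) (η : ℝ) (μ : V → Measure ℂ)
    [∀ x, IsProbabilityMeasure (μ x)] (y : V) (ν₀ ν₁ : Measure ℂ) [IsProbabilityMeasure ν₀]
    [IsProbabilityMeasure ν₁] {p : ℝ} (h0 : 0 ≤ p) (h1 : p ≤ 1) {Ψ : (V → ℂ) → ℝ} (hΨ : BM Ψ) :
    ∫ w, Ψ w ∂lab.ens η (Function.update μ y (mix p ν₀ ν₁)) =
      (1 - p) * ∫ w, Ψ w ∂lab.ens η (Function.update μ y ν₀) +
        p * ∫ w, Ψ w ∂lab.ens η (Function.update μ y ν₁) := by
  have := isProb_mix h0 h1 ν₀ ν₁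
  have hI : ∀ (ν : Measure ℂ) [IsProbabilityMeasure ν] (l : V → Bool),
      Integrable Ψ (Measure.pi (lab.law η (Function.update μ y ν) l)) := fun ν _ l => by
    have := isProb_update μ y ν
    have := lab.isProb_law hh η (Function.update μ y ν) l
    exact hΨ.integrable _
  rw [lab.integral_ens _ _ (hI _), lab.integral_ens _ _ (hI _), lab.integral_ens _ _ (hI _),
    mul_sum, mul_sum, ← sum_add_distrib]
  refine sum_congr rfl fun l _ => ?_
  by_cases hy : lab.act l y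
  · have := lab.isProb_law hh η μ l
    have i0 := hI ν₀ l
    have i1 := hI ν₁ l
    simp only [lab.law_update_of_act _ _ hy] at i0 i1 ⊢
    have f0 : IsFiniteMeasure (ENNReal.ofReal (1 - p) • ν₀) := ⟨by
      rw [Measure.smul_apply, smul_eq_mul]
      exact ENNReal.mul_lt_top ENNReal.ofReal_lt_top (measure_lt_top _ _)⟩
    have f1 : IsFiniteMeasure (ENNReal.ofReal p • ν₁) := ⟨by
      rw [Measure.smul_apply, smul_eq_mul]
      exact ENNReal.mul_lt_top ENNReal.ofReal_lt_top (measure_lt_top _ _)⟩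
    rw [mix, pi_update_add, pi_update_smul _ _ ENNReal.ofReal_ne_top,
      pi_update_smul _ _ ENNReal.ofReal_ne_top, integral_add_measure
        (i0.smul_measure ENNReal.ofReal_ne_top) (i1.smul_measure ENNReal.ofReal_ne_top),
      integral_smul_measure, integral_smul_measure, ENNReal.toReal_ofReal h0,
      ENNReal.toReal_ofReal (sub_nonneg.2 h1)]
    simp only [smul_eq_mul]
    ring
  · simp only [lab.law_update_of_not_act _ _ hy]
    ring

/-- a one-site inequality lifts to the ensemble -/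
theorem ens_step (hh : 0 < h) (η : ℝ) (μ : V → Measure ℂ) [∀ x, IsProbabilityMeasure (μ x)]
    (y : V) (ν₀ ν₁ κ₁ κ₂ : Measure ℂ) [IsProbabilityMeasure ν₀] [IsProbabilityMeasure ν₁]
    [IsProbabilityMeasure κ₁] [IsProbabilityMeasure κ₂] {Ψ X Y : (V → ℂ) → ℝ} (hΨ : BM Ψ)
    (hX : BM X) (hY : BM Y) (hX0 : ∀ w, 0 ≤ X w) (hY0 : ∀ w, 0 ≤ Y w) {C₁ C₂ : ℝ} (h₁ : 0 ≤ C₁)
    (h₂ : 0 ≤ C₂)
    (H : ∀ w, ∫ t, Ψ (Function.update w y t) ∂ν₁ ≤ ∫ t, Ψ (Function.update w y t) ∂ν₀ +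
      C₁ * ∫ t, X (Function.update w y t) ∂κ₁ + C₂ * ∫ t, Y (Function.update w y t) ∂κ₂) :
    ∫ w, Ψ w ∂lab.ens η (Function.update μ y ν₁) ≤ ∫ w, Ψ w ∂lab.ens η (Function.update μ y ν₀) +
      C₁ * ∫ w, X w ∂lab.ens η (Function.update μ y κ₁) +
      C₂ * ∫ w, Y w ∂lab.ens η (Function.update μ y κ₂) := by
  have hI : ∀ {F : (V → ℂ) → ℝ} (_ : BM F) (ν : Measure ℂ) [IsProbabilityMeasure ν] (l : V → Bool),
      Integrable F (Measure.pi (lab.law η (Function.update μ y ν) l)) := fun hF ν _ l => by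
    have := isProb_update μ y ν
    have := lab.isProb_law hh η (Function.update μ y ν) l
    exact hF.integrable _
  rw [lab.integral_ens _ _ (hI hΨ _), lab.integral_ens _ _ (hI hΨ _),
    lab.integral_ens _ _ (hI hX _), lab.integral_ens _ _ (hI hY _), mul_sum, mul_sum,
    ← sum_add_distrib, ← sum_add_distrib]
  refine sum_le_sum fun l _ => ?_
  rw [mul_left_comm C₁, mul_left_comm C₂, ← mul_add, ← mul_add]
  refine mul_le_mul_of_nonneg_left ?_ (lab.P_nonneg l)
  by_cases hy : lab.act l y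
  · have := lab.isProb_law hh η μ l
    have hJ : ∀ {F : (V → ℂ) → ℝ} (_ : BM F) (ν : Measure ℂ) [IsProbabilityMeasure ν],
        Integrable (fun w => ∫ t, F (Function.update w y t) ∂ν) (Measure.pi (lab.law η μ l)) :=
      fun hF ν _ => ((hF.comp (g := fun p : (V → ℂ) × ℂ => Function.update p.1 y p.2)
        measurable_update').integrable ((Measure.pi (lab.law η μ l)).prod ν)).integral_prod_left
    have i1 := hI hΨ ν₁ l
    have i0 := hI hΨ ν₀ l
    have i2 := hI hX κ₁ l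
    have i3 := hI hY κ₂ l
    simp only [lab.law_update_of_act _ _ hy] at i0 i1 i2 i3 ⊢
    rw [integral_pi_update _ _ _ i1, integral_pi_update _ _ _ i0, integral_pi_update _ _ _ i2,
      integral_pi_update _ _ _ i3, ← integral_const_mul, ← integral_const_mul,
      ← integral_add (hJ hΨ ν₀) ((hJ hX κ₁).const_mul _)]
    have j1 : Integrable (fun w => ∫ t, Ψ (Function.update w y t) ∂ν₀ +
        C₁ * ∫ t, X (Function.update w y t) ∂κ₁) (Measure.pi (lab.law η μ l)) :=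
      (hJ hΨ ν₀).add ((hJ hX κ₁).const_mul _)
    rw [← integral_add j1 ((hJ hY κ₂).const_mul _)]
    exact integral_mono (hJ hΨ ν₁) (j1.add ((hJ hY κ₂).const_mul _)) H
  · simp only [lab.law_update_of_not_act _ _ hy]
    have a1 : 0 ≤ ∫ w, X w ∂Measure.pi (lab.law η μ l) := integral_nonneg hX0
    have a2 : 0 ≤ ∫ w, Y w ∂Measure.pi (lab.law η μ l) := integral_nonneg hY0
    have := mul_nonneg h₁ a1
    have := mul_nonneg h₂ a2
    linarith

end ens

end Crest.Agent.N334.Sw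
end
end

-- ▼ part N334/Sw/Iw

/-!
# Row 334, S0519 SWITCH (helper45): averages of functionals of the port matrix, one-site drift
-/

set_option autoImplicit false

open MeasureTheory Finset
open scoped ENNReal

noncomputable section

namespace Crest.Agent.N334.Sw

open G I

theorem measurable_Gr (L : G.Lat) (x y : L.X) : Measurable fun w : L.X → ℂ => L.Gr w x y := by
  have hc : Continuous fun w : L.X → ℂ => L.A.map Complex.ofReal + Matrix.diagonal w :=
    continuous_const.add (Continuous.matrix_diagonal continuous_id)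
  have h1 := hc.matrix_det.measurable.inv
  have h2 : Measurable fun w : L.X → ℂ =>
      (L.A.map Complex.ofReal + Matrix.diagonal w).adjugate x y :=
    (hc.matrix_adjugate.matrix_elem x y).measurable
  simp only [G.Lat.Gr, Matrix.inv_def, Ring.inverse_eq_inv', Matrix.smul_apply, smul_eq_mul]
  exact h1.mul h2

theorem measurable_Kw (L : G.Lat) (E η : ℝ) : Measurable (Kw L E η) := by
  refine measurable_pi_lambda _ fun p => measurable_pi_lambda _ fun q => ?_
  have h1 : ∀ p : L.P, Measurable fun w : L.X → ℂ => L.str η (fun x => ga η (w x)) p := fun p => by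
    unfold G.Lat.str
    split_ifs
    · fun_prop
    · fun_prop
  have h2 : Measurable fun w : L.X → ℂ => L.wv E η (fun x => ga η (w x)) fun x => (w x).re := by
    refine measurable_pi_lambda _ fun x => ?_
    unfold G.Lat.wv
    fun_prop
  have h3 := (measurable_Gr L p.1 q.1).comp h2
  have h4 := h1 p
  have h5 := h1 q
  exact ((measurable_const.mul (Complex.measurable_ofReal.comp h4.sqrt)).mul
    (Complex.measurable_ofReal.comp h5.sqrt)).mul h3

section Iw
variable {L : G.Lat} {h : ℝ} (lab : Lab L.X h) (E : ℝ) {η : ℝ} {F F' : L.Mat → ℝ}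

theorem bm_Kw (hη : 0 < η) (hF : Nice F) : BM fun w => F (Kw L E η w) :=
  hF.bm (measurable_Kw L E η) (port_Kw L E hη)

theorem Iw_nonneg (hη : 0 < η) (μ : L.X → Measure ℂ) (h0 : ∀ K, IsPort K → 0 ≤ F K) :
    0 ≤ Iw lab E η μ F := integral_nonneg fun w => h0 _ (port_Kw L E hη w)

theorem Iw_mul (μ : L.X → Measure ℂ) (r : ℝ) (F : L.Mat → ℝ) :
    Iw lab E η μ (fun K => r * F K) = r * Iw lab E η μ F := integral_const_mul _ _

variable (hh : 0 < h) (hη : 0 < η) (μ : L.X → Measure ℂ) [∀ x, IsProbabilityMeasure (μ x)]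
include hh hη

theorem integrable_Kw (hF : Nice F) : Integrable (fun w => F (Kw L E η w)) (lab.ens η μ) := by
  have := lab.isProb_ens hh η μ
  exact (bm_Kw E hη hF).integrable _

theorem Iw_mono (hF : Nice F) (hF' : Nice F') (H : ∀ K, IsPort K → F K ≤ F' K) :
    Iw lab E η μ F ≤ Iw lab E η μ F' :=
  integral_mono (integrable_Kw lab E hh hη μ hF) (integrable_Kw lab E hh hη μ hF')
    fun w => H _ (port_Kw L E hη w)

theorem Iw_add (hF : Nice F) (hF' : Nice F') :
    Iw lab E η μ (fun K => F K + F' K) = Iw lab E η μ F + Iw lab E η μ F' :=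
  integral_add (integrable_Kw lab E hh hη μ hF) (integrable_Kw lab E hh hη μ hF')

theorem Iw_sum {ι : Type} (s : Finset ι) {F : ι → L.Mat → ℝ} (hF : ∀ i ∈ s, Nice (F i)) :
    Iw lab E η μ (fun K => ∑ i ∈ s, F i K) = ∑ i ∈ s, Iw lab E η μ (F i) :=
  integral_finset_sum s fun i hi => integrable_Kw lab E hh hη μ (hF i hi)

omit hη in
theorem Iw_const (r : ℝ) : Iw lab E η μ (fun _ => r) = r := by
  have := lab.isProb_ens hh η μ
  simp [Iw]

theorem Iw_update_mix (y : L.X) (ν₀ ν₁ : Measure ℂ) [IsProbabilityMeasure ν₀]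
    [IsProbabilityMeasure ν₁] {p : ℝ} (h0 : 0 ≤ p) (h1 : p ≤ 1) (hF : Nice F) :
    Iw lab E η (Function.update μ y (mix p ν₀ ν₁)) F =
      (1 - p) * Iw lab E η (Function.update μ y ν₀) F +
        p * Iw lab E η (Function.update μ y ν₁) F :=
  integral_update_mix lab hh η μ y ν₀ ν₁ h0 h1 (bm_Kw E hη hF)

/-- conditioning on the first state of a mixture -/
theorem Iw_open_le {y : L.X} {ν₀ ν₁ : Measure ℂ} [IsProbabilityMeasure ν₀]
    [IsProbabilityMeasure ν₁] {p : ℝ} (h0 : 0 ≤ p) (h1 : p ≤ 1) (hy : μ y = mix p ν₀ ν₁)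
    (hF : Nice F) (hF0 : ∀ K, IsPort K → 0 ≤ F K) :
    (1 - p) * Iw lab E η (Function.update μ y ν₀) F ≤ Iw lab E η μ F := by
  have h2 := Iw_update_mix lab E hh hη μ y ν₀ ν₁ h0 h1 hF
  rw [← hy, Function.update_eq_self] at h2
  have := mul_nonneg h0 (Iw_nonneg lab E hη (Function.update μ y ν₁) hF0)
  linarith

/-- one-site drift in the ensemble -/
theorem Iw_step (y : L.X) {ν₀ ν₁ κ₁ κ₂ : Measure ℂ} [IsProbabilityMeasure ν₀]
    [IsProbabilityMeasure ν₁] [IsProbabilityMeasure κ₁] [IsProbabilityMeasure κ₂]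
    {Ψ X Y : L.Mat → ℝ} (hΨ : Nice Ψ) (hX : Nice X) (hY : Nice Y)
    (hX0 : ∀ K, IsPort K → 0 ≤ X K) (hY0 : ∀ K, IsPort K → 0 ≤ Y K) {C₁ C₂ : ℝ} (h₁ : 0 ≤ C₁)
    (h₂ : 0 ≤ C₂) (hL : Loc ((y, true) : L.P) Ψ X Y) (hS : Step η ν₀ ν₁ C₁ κ₁ C₂ κ₂) :
    Iw lab E η (Function.update μ y ν₁) Ψ ≤ Iw lab E η (Function.update μ y ν₀) Ψ +
      C₁ * Iw lab E η (Function.update μ y κ₁) X + C₂ * Iw lab E η (Function.update μ y κ₂) Y := by
  refine ens_step lab hh η μ y ν₀ ν₁ κ₁ κ₂ (bm_Kw E hη hΨ) (bm_Kw E hη hX) (bm_Kw E hη hY)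
    (fun w => hX0 _ (port_Kw L E hη w)) (fun w => hY0 _ (port_Kw L E hη w)) h₁ h₂ fun w => ?_
  obtain ⟨c, hc⟩ := Kw_update L E hη w y
  obtain ⟨β, b, hb, hP, hβ, hb'⟩ := hL c
  have hB : ∀ {F : L.Mat → ℝ}, Nice F → BM fun t : ℂ => F (c.K t.re (ga η t)) := fun hF => by
    have := (bm_Kw E hη hF).comp (g := fun t : ℂ => Function.update w y t) (measurable_update w)
    simpa only [hc] using this
  have h1 := hS c.s β b _ c.s_pos hb (hB hΨ) hP
  have h2 : ‖β‖ * ∫ t, shz η c.s t ∂κ₁ ≤ ∫ t, X (c.K t.re (ga η t)) ∂κ₁ := by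
    rw [← integral_const_mul]
    exact integral_mono (((bm_shz η c.s_pos).const_mul _).integrable _) ((hB hX).integrable _)
      fun t => hβ _ _ (ga_nonneg η t)
  have h3 : b * ∫ t, shz η c.s t ∂κ₂ ≤ ∫ t, Y (c.K t.re (ga η t)) ∂κ₂ := by
    rw [← integral_const_mul]
    exact integral_mono (((bm_shz η c.s_pos).const_mul _).integrable _) ((hB hY).integrable _)
      fun t => hb' _ _ (ga_nonneg η t)
  simp only [hc]
  have := mul_le_mul_of_nonneg_left h2 h₁
  have := mul_le_mul_of_nonneg_left h3 h₂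
  linarith

/-- crude one-site bound -/
theorem Iw_crude (y : L.X) {ν₀ ν₁ : Measure ℂ} [IsProbabilityMeasure ν₀]
    [IsProbabilityMeasure ν₁] {Ψ : L.Mat → ℝ} (hΨ : Nice Ψ) {M δ : ℝ} (hδ : 0 ≤ δ)
    (hM : ∀ K, IsPort K → |Ψ K| ≤ M)
    (H : ∀ F : ℂ → ℝ, Measurable F → (∀ t, |F t| ≤ M) → ∫ t, F t ∂ν₁ - ∫ t, F t ∂ν₀ ≤ δ) :
    Iw lab E η (Function.update μ y ν₁) Ψ ≤ Iw lab E η (Function.update μ y ν₀) Ψ + δ := by
  have := isProb_update μ y ν₀
  have := lab.isProb_ens hh η (Function.update μ y ν₀)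
  have h1 := ens_step lab hh η μ y ν₀ ν₁ ν₀ ν₀ (bm_Kw E hη hΨ) (BM.const 1) (BM.const 1)
    (fun _ => zero_le_one) (fun _ => zero_le_one) hδ le_rfl fun w => by
      have := H (fun t => Ψ (Kw L E η (Function.update w y t)))
        ((bm_Kw E hη hΨ).comp (g := fun t : ℂ => Function.update w y t) (measurable_update w)).meas
        fun t => hM _ (port_Kw L E hη _)
      simp only [integral_const, probReal_univ, smul_eq_mul, mul_one, zero_mul, add_zero]
      linarith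
  simpa [Iw] using h1

/-- Gronwall when only the sites of `S` move -/
theorem Iw_flow (S : Finset L.X) (ν₀ ν₁ : L.X → Measure ℂ) [∀ x, IsProbabilityMeasure (ν₀ x)]
    [∀ x, IsProbabilityMeasure (ν₁ x)] {Ψ : L.Mat → ℝ} (hΨ : Nice Ψ) {a b : ℝ} (ha : 0 ≤ a)
    (hab : a ≤ b) (hb : b ≤ 1) {R r : ℝ → ℝ} (hR : ContinuousOn R (Set.Icc a b))
    (hR' : ∀ p ∈ Set.Ioo a b, HasDerivAt R (r p) p)
    (H : ∀ p ∈ Set.Ioo a b, ∑ y ∈ S,
      (Iw lab E η (Function.update (rep S μ fun x => mix p (ν₀ x) (ν₁ x)) y (ν₁ y)) Ψ -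
        Iw lab E η (Function.update (rep S μ fun x => mix p (ν₀ x) (ν₁ x)) y (ν₀ y)) Ψ) ≤
      r p * Iw lab E η (rep S μ fun x => mix p (ν₀ x) (ν₁ x)) Ψ) :
    Iw lab E η (rep S μ fun x => mix b (ν₀ x) (ν₁ x)) Ψ ≤
      Real.exp (R b - R a) * Iw lab E η (rep S μ fun x => mix a (ν₀ x) (ν₁ x)) Ψ := by
  have p0 : ∀ x, IsProbabilityMeasure (rep S μ ν₀ x) := fun x => by
    unfold rep; split_ifs <;> infer_instance
  have p1 : ∀ x, IsProbabilityMeasure (rep S μ ν₁ x) := fun x => by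
    unfold rep; split_ifs <;> infer_instance
  have e : ∀ p, 0 ≤ p → p ≤ 1 → (fun x => mix p (rep S μ ν₀ x) (rep S μ ν₁ x)) =
      rep S μ fun x => mix p (ν₀ x) (ν₁ x) := fun p h0 h1 => by
    funext x
    unfold rep
    split_ifs
    · rfl
    · exact mix_self h0 h1 _
  have h1 := flow lab hh η (rep S μ ν₀) (rep S μ ν₁) (bm_Kw E hη hΨ) ha hab hb hR hR' fun p hp => by
    rw [e p (ha.trans hp.1.le) (hp.2.le.trans hb)]
    refine le_trans (le_of_eq ?_) (H p hp)
    rw [← sum_subset (subset_univ S) fun y _ hy => by simp [rep, hy]]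
    exact sum_congr rfl fun y hy => by simp [rep, hy, Iw]
  rwa [e a ha (hab.trans hb), e b (ha.trans hab) hb] at h1

end Iw

end Crest.Agent.N334.Sw
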