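import Crest.Agent.N334.Sw.Defs
import Crest.Agent.N334.G.Geo2
import Crest.Agent.N334.Sw.Exp
import Crest.Agent.N334.I.Mix

-- ▼ part N334/Sw/Ker
section

/-!
# Row 334, S0519 SWITCH: kernel energies of the three weights (filled by helper24)
-/

set_option autoImplicit false

open MeasureTheory Finset

noncomputable section

namespace Crest.Agent.N334.Sw

open G I

namespace Ker

theorem card_le (L : G.Lat) (c : L.X) {R : ℝ} (hR : 0 ≤ R) :
    ((univ.filter fun x => L.rx c x ≤ R).card : ℝ) ≤ 2 + R := L.ball_le c R hR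

theorem sum_inv_sq (L : G.Lat) (c : L.X) {R : ℝ} (hR : 1 ≤ R) :
    ∑ x, ((1 + L.rx c x / R) ^ 2)⁻¹ ≤ 24 * R := by
  have hR0 : 0 < R := by linarith
  have hex : ∀ x, ∃ k : ℕ, L.rx c x / R ≤ 2 ^ k := fun x =>
    (pow_unbounded_of_one_lt _ (by norm_num)).imp fun _ h => h.le
  set k : L.X → ℕ := fun x => Nat.find (hex x) with hk
  have h1 : ∀ x, ((1 + L.rx c x / R) ^ 2)⁻¹ ≤ 4 * (1 / 4) ^ k x := by
    intro x
    have h0 := div_nonneg (L.rx_nonneg c x) hR0.le
    rcases e : k x with _ | j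
    · exact (inv_le_one_of_one_le₀ (by nlinarith)).trans (by norm_num)
    · have h2 := not_le.1 (Nat.find_min (hex x) (show j < k x by omega))
      rw [pow_succ _ j, mul_comm, mul_assoc, one_div_mul_cancel (by norm_num), mul_one, one_div,
        inv_pow, show (4 : ℝ) ^ j = (2 ^ j) ^ 2 by rw [← pow_mul, mul_comm, pow_mul]; norm_num]
      gcongr; linarith
  refine (sum_le_sum fun x _ => h1 x).trans ?_
  rw [← sum_fiberwise_of_maps_to (t := range (univ.sup k + 1)) (g := k)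
    (fun x hx => mem_range.2 (Nat.lt_succ_of_le (le_sup hx)))]
  refine le_trans (sum_le_sum (g := fun j => 12 * R * (1 / 2) ^ j) fun j _ => ?_) ?_
  · rw [sum_congr rfl (g := fun _ => 4 * (1 / 4 : ℝ) ^ j) (fun x hx => by rw [(mem_filter.1 hx).2]),
      sum_const, nsmul_eq_mul]
    have h2 : ((univ.filter fun x => k x = j).card : ℝ) ≤ 2 + 2 ^ j * R := by
      refine le_trans ?_ (card_le L c (by positivity))
      refine Nat.cast_le.2 (card_le_card fun x hx => mem_filter.2 ⟨mem_univ _, ?_⟩)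
      rw [← div_le_iff₀ hR0, ← (mem_filter.1 hx).2]
      exact Nat.find_spec (hex x)
    have h3 : (1 : ℝ) ≤ 2 ^ j := one_le_pow₀ (by norm_num)
    have h4 : (2 : ℝ) ^ j * (1 / 4) ^ j = (1 / 2) ^ j := by rw [← mul_pow]; norm_num
    calc _ ≤ (3 * (2 ^ j * R)) * (4 * (1 / 4 : ℝ) ^ j) := by gcongr; nlinarith
      _ = _ := by rw [← h4]; ring
  · rw [← mul_sum]
    nlinarith [sum_geometric_two_le (univ.sup k + 1)]

theorem pow_exp {s : ℝ} (hs : 0 ≤ s) (n : ℕ) : s ^ n * Real.exp (-s) ≤ n.factorial := by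
  have := Real.pow_div_factorial_le_exp s hs n
  rw [Real.exp_neg, ← div_eq_mul_inv, div_le_iff₀ (Real.exp_pos _), mul_comm,
    ← div_le_iff₀ (by positivity)]
  exact this

theorem kx_pos (L : G.Lat) (D : ℝ) (x y : L.X) : 0 < kx L D x y := Real.exp_pos _

theorem kx_symm (L : G.Lat) (D : ℝ) (x y : L.X) : kx L D x y = kx L D y x := by
  rw [kx, kx, L.rx_symm]

/-- moments of the exponential kernel -/
theorem sum_kx (j : ℕ) : ∃ C : ℝ, 1 ≤ C ∧ ∀ (L : G.Lat) (D : ℝ), 1 ≤ D → ∀ o : L.X,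
    ∑ x, kx L D o x * L.rx o x ^ j ≤ C * D ^ (2 * j + 2) := by
  set A : ℝ := (2 * j).factorial + 2 * (2 * j + 2).factorial + (2 * j + 4).factorial with hA
  have hA1 : 1 ≤ A := by
    have : (1 : ℝ) ≤ (2 * j).factorial := by exact_mod_cast Nat.factorial_pos _
    rw [hA]; linarith [Nat.cast_nonneg (α := ℝ) (2 * j + 2).factorial,
      Nat.cast_nonneg (α := ℝ) (2 * j + 4).factorial]
  refine ⟨24 * A, by linarith, fun L D hD o => ?_⟩
  have hD0 : 0 < D := by linarith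
  have h1 : ∀ x, kx L D o x * L.rx o x ^ j ≤ A * D ^ (2 * j) * ((1 + L.rx o x / D ^ 2) ^ 2)⁻¹ := by
    intro x
    have h0 := L.rx_nonneg o x
    obtain ⟨s, hs⟩ : ∃ s, s = √(L.rx o x) / D := ⟨_, rfl⟩
    have hs0 : 0 ≤ s := by rw [hs]; positivity
    have e : L.rx o x = s ^ 2 * D ^ 2 := by rw [hs, div_pow, Real.sq_sqrt h0]; field_simp
    rw [kx, ← hs, e, mul_div_cancel_right₀ _ (by positivity), ← div_eq_mul_inv,
      le_div_iff₀ (by positivity)]
    have := add_le_add (add_le_add (pow_exp hs0 (2 * j)) (mul_le_mul_of_nonneg_left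
      (pow_exp hs0 (2 * j + 2)) zero_le_two)) (pow_exp hs0 (2 * j + 4))
    calc _ = (s ^ (2 * j) * Real.exp (-s) + 2 * (s ^ (2 * j + 2) * Real.exp (-s)) +
          s ^ (2 * j + 4) * Real.exp (-s)) * D ^ (2 * j) := by ring
      _ ≤ _ := by gcongr
  refine (sum_le_sum fun x _ => h1 x).trans ?_
  rw [← mul_sum]
  calc _ ≤ A * D ^ (2 * j) * (24 * D ^ 2) := by
        gcongr; exact sum_inv_sq L o (one_le_pow₀ hD)
    _ = _ := by ring

theorem ak_le {L : G.Lat} {k : L.X → L.X → ℝ} {w : L.P → L.P → ℝ} {v : L.X → L.X → ℝ}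
    (h : ∀ o q, k o q.1 * w (o, true) q ≤ v o q.1) : Ak k w ≤ 2 * ∑ o, ∑ x, v o x := by
  rw [Ak, mul_sum]
  refine sum_le_sum fun o _ => (sum_le_sum fun q _ => h o q).trans (le_of_eq ?_)
  simp only [Fintype.sum_prod_type, Fintype.sum_bool, two_mul, sum_add_distrib]

end Ker

open Ker

theorem ak_r2 : ∃ C : ℝ, 1 ≤ C ∧ ∀ (L : G.Lat) (D : ℝ), 1 ≤ D →
    Ak (kx L D) L.r2 ≤ C * D ^ 4 * Fintype.card L.X := by
  obtain ⟨C, hC, h⟩ := sum_kx 1
  refine ⟨2 * C, by linarith, fun L D hD => ?_⟩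
  refine (ak_le (v := fun o x => kx L D o x * L.rx o x ^ 1) fun o q => by
    rw [pow_one]; rfl).trans ?_
  have := sum_le_sum fun o (_ : o ∈ univ) => h L D hD o
  rw [sum_const, card_univ, nsmul_eq_mul] at this
  calc _ ≤ 2 * (Fintype.card L.X * (C * D ^ (2 * 1 + 2))) := by gcongr
    _ = _ := by ring

theorem ak_s4 : ∃ C : ℝ, 1 ≤ C ∧ ∀ (L : G.Lat) (D : ℝ), 1 ≤ D → ∀ m, m < L.N →
    Ak (kx L D) (L.s4 m) ≤ C * D ^ 6 / 16 ^ m * Fintype.card L.X := by
  obtain ⟨C, hC, h⟩ := sum_kx 2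
  refine ⟨2 * C, by linarith, fun L D hD m hm => ?_⟩
  refine (ak_le (v := fun o x => (16 ^ m)⁻¹ * (kx L D o x * L.rx o x ^ 2)) fun o q => ?_).trans ?_
  · rw [mul_left_comm]
    refine mul_le_mul_of_nonneg_left ((L.s4_le hm _ _).2.trans ?_) (kx_pos L D _ _).le
    rw [div_pow, ← pow_mul, mul_comm (m + 1), pow_mul, div_eq_inv_mul]
    refine mul_le_mul_of_nonneg_right (inv_anti₀ (by positivity) ?_) (sq_nonneg _)
    rw [show (4 : ℝ) ^ 2 = 16 by norm_num]
    exact pow_le_pow_right₀ (by norm_num) m.le_succ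
  · have := sum_le_sum fun o (_ : o ∈ univ) => h L D hD o
    rw [sum_const, card_univ, nsmul_eq_mul] at this
    simp only [← mul_sum]
    calc _ ≤ 2 * ((16 ^ m)⁻¹ * (Fintype.card L.X * (C * D ^ (2 * 2 + 2)))) := by gcongr
      _ = _ := by ring

theorem ak_wF : ∃ C : ℝ, 1 ≤ C ∧ ∀ (L : G.Lat) (D : ℝ), 1 ≤ D → ∀ (c : L.X) (R2 : ℝ), 1 ≤ R2 →
    Ak (kx L D) (L.wF c R2) ≤ C * D ^ 4 := by
  obtain ⟨C, hC, h⟩ := sum_kx 1
  refine ⟨192 * C, by linarith, fun L D hD c R hR => ?_⟩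
  have hR0 : 0 < R := by linarith
  set f : L.X → ℝ := fun x => ((1 + L.rx c x / R) ^ 2)⁻¹ with hf
  have hf0 : ∀ x, 0 ≤ f x := fun x => by positivity
  refine (ak_le (v := fun o x => 2 / R * (f o * (kx L D o x * L.rx o x ^ 1) +
    f x * (kx L D x o * L.rx x o ^ 1))) fun o q => ?_).trans ?_
  · rw [kx_symm L D q.1, L.rx_symm q.1, pow_one, ← add_mul, ← mul_assoc, mul_left_comm]
    refine mul_le_mul_of_nonneg_left ?_ (kx_pos L D _ _).le
    have h1 := L.rx_nonneg o q.1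
    have ha : 0 < 1 + L.rx c o / R := by have := L.rx_nonneg c o; positivity
    have hb : 0 < 1 + L.rx c q.1 / R := by have := L.rx_nonneg c q.1; positivity
    have : 2 * ((1 + L.rx c o / R)⁻¹ * (1 + L.rx c q.1 / R)⁻¹) ≤ f o + f q.1 := by
      simp only [hf, ← inv_pow]
      nlinarith [sq_nonneg ((1 + L.rx c o / R)⁻¹ - (1 + L.rx c q.1 / R)⁻¹)]
    calc _ = 2 / R * (2 * ((1 + L.rx c o / R)⁻¹ * (1 + L.rx c q.1 / R)⁻¹)) * L.rx o q.1 := by
          rw [Lat.wF, L.rx_eq, L.rx_symm c, L.rx_symm c, div_eq_mul_inv, mul_inv]; ring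
      _ ≤ _ := by gcongr
  · simp only [← mul_sum, sum_add_distrib]
    rw [sum_comm (f := fun o x => f x * (kx L D x o * L.rx x o ^ 1))]
    simp only [← mul_sum]
    have h1 : ∑ o, f o * ∑ x, kx L D o x * L.rx o x ^ 1 ≤ 24 * R * (C * D ^ 4) := by
      refine (sum_le_sum fun o _ => mul_le_mul_of_nonneg_left (h L D hD o) (hf0 o)).trans ?_
      rw [← sum_mul]
      exact mul_le_mul_of_nonneg_right (sum_inv_sq L c hR) (by positivity)
    calc _ ≤ 2 * (2 / R * (24 * R * (C * D ^ 4) + 24 * R * (C * D ^ 4))) := by gcongr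
      _ = _ := by field_simp; ring

end Crest.Agent.N334.Sw
end
end

-- ▼ part N334/Sw/Sum

/-!
# Row 334, S0519 SWITCH (helper24): from the per-source bounds `LCat`, `BPat` to the summed bounds
-/

set_option autoImplicit false

open MeasureTheory Finset

noncomputable section

namespace Crest.Agent.N334.Sw

open G I

namespace Sm

theorem measurable_Kw (L : G.Lat) (E η : ℝ) : Measurable (Kw L E η) := by
  have hg : Continuous (ga η) := by unfold ga; fun_prop
  have h : Continuous fun w : L.X → ℂ => L.A.map Complex.ofReal +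
      Matrix.diagonal (L.wv E η (fun x => ga η (w x)) fun x => (w x).re) :=
    continuous_const.add (Continuous.matrix_diagonal (by unfold Lat.wv; fun_prop))
  refine measurable_pi_lambda _ fun p => measurable_pi_lambda _ fun q => ?_
  have hs : ∀ p : L.P, Continuous fun w : L.X → ℂ => L.str η (fun x => ga η (w x)) p := fun p => by
    simp only [G.Lat.str]; split_ifs <;> fun_prop
  have := hs p
  have := hs q
  simp only [Kw, Lat.Km, Lat.Gr, Matrix.inv_def, Ring.inverse_eq_inv', Matrix.smul_apply,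
    smul_eq_mul]
  exact Measurable.mul (Continuous.measurable (by fun_prop))
    (h.matrix_det.measurable.inv.mul (h.matrix_adjugate.matrix_elem p.1 q.1).measurable)

variable {L : G.Lat} {h : ℝ} {lab : Lab L.X h} {E η : ℝ} (hh : 0 < h) (hη : 0 < η)
  {μ : L.X → Measure ℂ} (hμ : ∀ x, IsProbabilityMeasure (μ x))

include hh hη hμ

theorem int_Kw {F : L.Mat → ℝ} (hF : Nice F) :
    Integrable (fun w => F (Kw L E η w)) (lab.ens η μ) := by
  have := lab.isProb_ens hh η μ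
  exact (hF.bm (measurable_Kw L E η) (port_Kw L E hη)).integrable _

theorem Iw_mono {F F' : L.Mat → ℝ} (hF : Nice F) (hF' : Nice F') (H : ∀ K, IsPort K → F K ≤ F' K) :
    Iw lab E η μ F ≤ Iw lab E η μ F' :=
  integral_mono (int_Kw hh hη hμ hF) (int_Kw hh hη hμ hF') fun w => H _ (port_Kw L E hη w)

theorem Iw_sum {ι : Type} (s : Finset ι) {F : ι → L.Mat → ℝ} (hF : ∀ i ∈ s, Nice (F i)) :
    Iw lab E η μ (fun K => ∑ i ∈ s, F i K) = ∑ i ∈ s, Iw lab E η μ (F i) :=
  integral_finsetSum s fun i hi => int_Kw hh hη hμ (hF i hi)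

omit hh hη hμ in
theorem Iw_mul (r : ℝ) (F : L.Mat → ℝ) :
    Iw lab E η μ (fun K => r * F K) = r * Iw lab E η μ F := integral_const_mul _ _

omit hh hμ in
theorem Iw_nonneg {F : L.Mat → ℝ} (H : ∀ K, IsPort K → 0 ≤ F K) : 0 ≤ Iw lab E η μ F :=
  integral_nonneg fun w => H _ (port_Kw L E hη w)

theorem Iw_Gam {W : L.Mat → ℝ} (hW : Nice W) (w : L.P → L.P → ℝ) (p p' : L.P) :
    ∑ q, w p' q * Iw lab E η μ (fun K => W K * cc K p q) =
      Iw lab E η μ fun K => W K * ∑ q, cc K p q * w p' q := by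
  simp only [← Iw_mul, mul_sum]
  rw [← Iw_sum hh hη hμ _ fun q _ => (Nice.const _).mul (hW.mul (nice_cc p q))]
  congr 1; funext K
  exact sum_congr rfl fun q _ => by ring

/-- the shares of a family of sites with bounded multiplicity -/
theorem sum_Gam_le {W : L.Mat → ℝ} (hW : Nice W) (hW0 : ∀ K, IsPort K → 0 ≤ W K)
    {w : L.P → L.P → ℝ} (hw : ∀ a b, 0 ≤ w a b) (S : Finset L.X) (y : L.X → L.X) {n : ℝ}
    (hn : ∀ z, ((S.filter fun o => y o = z).card : ℝ) ≤ n) :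
    ∑ o ∈ S, Iw lab E η μ (fun K => W K * Gam w K (y o, true)) ≤
      n * Iw lab E η μ fun K => W K * En w K := by
  rw [← Iw_sum hh hη hμ _ fun o _ => hW.mul (nice_Gam w _), ← Iw_mul]
  refine Iw_mono hh hη hμ (Nice.sum _ fun o _ => hW.mul (nice_Gam w _))
    ((Nice.const _).mul (hW.mul (nice_En w))) fun K hK => ?_
  rw [← mul_sum, mul_left_comm]
  refine mul_le_mul_of_nonneg_left ?_ (hW0 K hK)
  rw [← sum_fiberwise_of_maps_to (t := univ) (g := y) fun _ _ => mem_univ _, En,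
    Fintype.sum_prod_type, mul_sum]
  refine sum_le_sum fun z _ => ?_
  rw [sum_congr rfl (g := fun _ => Gam w K (z, true)) (fun o ho => by rw [(mem_filter.1 ho).2]),
    sum_const, nsmul_eq_mul, Fintype.sum_bool]
  have h0 := Gam_nonneg hw K
  have := (Nat.cast_nonneg _).trans (hn z)
  nlinarith [mul_le_mul_of_nonneg_right (hn z) (h0 (z, true)), mul_nonneg this (h0 (z, false))]

omit hh hη hμ in
theorem Ak_nonneg {k : L.X → L.X → ℝ} (hk : ∀ x y, 0 ≤ k x y) {w : L.P → L.P → ℝ}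
    (hw : ∀ a b, 0 ≤ w a b) : 0 ≤ Ak k w :=
  sum_nonneg fun _ _ => sum_nonneg fun _ _ => mul_nonneg (hk _ _) (hw _ _)

omit hh hη hμ in
theorem Ak_sub {k : L.X → L.X → ℝ} (hk : ∀ x y, 0 ≤ k x y) {w : L.P → L.P → ℝ}
    (hw : ∀ a b, 0 ≤ w a b) (S : Finset L.X) :
    ∑ o ∈ S, ∑ q : L.P, k o q.1 * w (o, true) q ≤ Ak k w :=
  sum_le_univ_sum_of_nonneg fun _ => sum_nonneg fun _ _ => mul_nonneg (hk _ _) (hw _ _)

/-- `W En ≤ Ψ` and `lam W ≤ Ψ` -/
theorem psi_le {w : L.P → L.P → ℝ} (hw : ∀ a b, 0 ≤ w a b) {lam : ℝ} (hl : 0 < lam) {p : ℕ}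
    (hp : 1 ≤ p) :
    Iw lab E η μ (fun K => (lam + En w K) ^ (p - 1) * En w K) ≤
      Iw lab E η μ (fun K => (lam + En w K) ^ p) ∧
    Iw lab E η μ (fun K => (lam + En w K) ^ (p - 1)) ≤
      lam⁻¹ * Iw lab E η μ fun K => (lam + En w K) ^ p := by
  obtain ⟨p, rfl⟩ := Nat.exists_eq_add_of_le' hp
  have hN : Nice fun K : L.Mat => lam + En w K := (Nice.const _).add (nice_En w)
  rw [Nat.add_sub_cancel, ← Iw_mul]
  refine ⟨Iw_mono hh hη hμ ((hN.pow p).mul (nice_En w)) (hN.pow _) fun K _ => ?_,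
    Iw_mono hh hη hμ (hN.pow p) ((Nice.const _).mul (hN.pow _)) fun K _ => ?_⟩
  · have := En_nonneg hw K
    rw [pow_succ]; gcongr; linarith
  · have := En_nonneg hw K
    rw [le_inv_mul_iff₀ hl, pow_succ']; gcongr; linarith

end Sm

open Sm

variable {L : G.Lat} {h : ℝ} {lab : Lab L.X h} {E η : ℝ} (hh : 0 < h) (hη : 0 < η)
  {μ : L.X → Measure ℂ} (hμ : ∀ x, IsProbabilityMeasure (μ x))

include hh hη hμ

/-- summed local comparison -/
theorem sh_of_LC {W : L.Mat → ℝ} (hW : Nice W) (hW0 : ∀ K, IsPort K → 0 ≤ W K)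
    {w : L.P → L.P → ℝ} (hw : ∀ a b, 0 ≤ w a b) (htri : ∀ a b c, w a c ≤ 8 * (w a b + w b c))
    {S : Finset L.X} {y : L.X → L.X} {n π D : ℝ} (hπ : 0 ≤ π) (hD : 0 < D)
    (hn : ∀ z, ((S.filter fun o => y o = z).card : ℝ) ≤ n)
    (hy : ∀ o ∈ S, √(L.rx o (y o)) ≤ D)
    (H : ∀ o ∈ S, LCat lab E η μ W o (y o) π (kx L D o)) :
    Sh lab E η μ S W w ≤ π * (8 * n * Iw lab E η μ (fun K => W K * En w K) +
      97 * Ak (kx L D) w * Iw lab E η μ W) := by
  have hI := Iw_nonneg (lab := lab) (E := E) (μ := μ) hη hW0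
  have hk : ∀ x y, 0 ≤ kx L D x y := fun x y => (Ker.kx_pos L D x y).le
  have h1 : ∀ o ∈ S, Iw lab E η μ (fun K => W K * Gam w K (o, true)) ≤
      π * (8 * Iw lab E η μ (fun K => W K * Gam w K (y o, true)) +
        97 * (∑ q : L.P, kx L D o q.1 * w (o, true) q) * Iw lab E η μ W) := by
    intro o ho
    have e1 : w (o, true) (y o, true) ≤ 3 * ∑ q : L.P, kx L D o q.1 * w (o, true) q := by
      have e2 := single_le_sum (f := fun q : L.P => kx L D o q.1 * w (o, true) q)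
        (fun q _ => mul_nonneg (hk _ _) (hw _ _)) (mem_univ (y o, true))
      have e3 : 1 ≤ 3 * kx L D o (y o) := by
        have e4 : Real.exp (-1) ≤ kx L D o (y o) :=
          Real.exp_le_exp.2 (neg_le_neg ((div_le_one hD).2 (hy o ho)))
        have e5 : Real.exp 1 * Real.exp (-1) = 1 := by rw [← Real.exp_add]; simp
        nlinarith [Real.exp_one_lt_d9, Real.exp_pos (-1)]
      nlinarith [hw (o, true) (y o, true)]
    have e2 : Iw lab E η μ (fun K => W K * ∑ q, cc K (y o, true) q * w (o, true) q) ≤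
        8 * Iw lab E η μ (fun K => W K * Gam w K (y o, true)) +
          32 * w (o, true) (y o, true) * Iw lab E η μ W := by
      have n1 := (Nice.const 8).mul (hW.mul (nice_Gam w (y o, true)))
      have n2 := (Nice.const (32 * w (o, true) (y o, true))).mul hW
      rw [← Iw_mul, ← Iw_mul, Iw, Iw, Iw, ← integral_add (int_Kw hh hη hμ n1) (int_Kw hh hη hμ n2)]
      refine Iw_mono hh hη hμ (hW.mul (Nice.sum _ fun q _ => (nice_cc _ q).mul (Nice.const _)))
        (n1.add n2) fun K hK => ?_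
      have e3 : ∑ q, cc K (y o, true) q * w (o, true) q ≤
          8 * Gam w K (y o, true) + 8 * w (o, true) (y o, true) * dd K (y o, true) := by
        rw [Gam, dd, mul_sum, mul_sum, ← sum_add_distrib]
        exact sum_le_sum fun q _ => by
          nlinarith [mul_le_mul_of_nonneg_left (htri (o, true) (y o, true) q) (cc_nonneg K (y o, true) q)]
      have e4 := mul_le_mul_of_nonneg_left (hK.dd_le (y o, true)) (hw (o, true) (y o, true))
      nlinarith [mul_le_mul_of_nonneg_left (e3.trans (show _ ≤ 8 * Gam w K (y o, true) +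
        32 * w (o, true) (y o, true) by linarith)) (hW0 K hK)]
    rw [show (fun K => W K * Gam w K (o, true)) =
      fun K => W K * ∑ q, cc K (o, true) q * w (o, true) q from rfl, ← Iw_Gam hh hη hμ hW]
    refine (sum_le_sum fun q _ => mul_le_mul_of_nonneg_left (H o ho q) (hw _ q)).trans ?_
    simp only [mul_left_comm _ π, ← mul_sum, mul_add (w _ _), sum_add_distrib, ← mul_assoc,
      ← sum_mul, mul_comm (w _ _) (kx L D o _)]
    rw [Iw_Gam hh hη hμ hW]
    refine mul_le_mul_of_nonneg_left ?_ hπ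
    nlinarith [mul_le_mul_of_nonneg_right e1 hI]
  refine (sum_le_sum h1).trans ?_
  rw [← mul_sum, sum_add_distrib, ← mul_sum, ← sum_mul, ← mul_sum]
  have h2 := sum_Gam_le (lab := lab) (E := E) hh hη hμ hW hW0 hw S y hn
  have h3 := mul_le_mul_of_nonneg_right (Ak_sub hk hw S) hI
  exact mul_le_mul_of_nonneg_left (by linarith) hπ

/-- summed local comparison, tempered form (`p = 1`: plain) -/
theorem sh_of_LC_psi {w : L.P → L.P → ℝ} (hw : ∀ a b, 0 ≤ w a b)
    (htri : ∀ a b c, w a c ≤ 8 * (w a b + w b c)) {lam : ℝ} (hl : 0 < lam) {p : ℕ} (hp : 1 ≤ p)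
    {S : Finset L.X} {y : L.X → L.X} {n π D : ℝ} (hπ : 0 ≤ π) (hD : 0 < D) (hn0 : 0 ≤ n)
    (hn : ∀ z, ((S.filter fun o => y o = z).card : ℝ) ≤ n)
    (hy : ∀ o ∈ S, √(L.rx o (y o)) ≤ D)
    (H : ∀ o ∈ S, LCat lab E η μ (fun K => (lam + En w K) ^ (p - 1)) o (y o) π (kx L D o)) :
    Sh lab E η μ S (fun K => (lam + En w K) ^ (p - 1)) w ≤
      π * (8 * n + 97 * Ak (kx L D) w / lam) * Iw lab E η μ fun K => (lam + En w K) ^ p := by
  obtain ⟨h1, h2⟩ := psi_le (lab := lab) (E := E) hh hη hμ hw hl hp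
  have hA := Ak_nonneg (fun x y => (Ker.kx_pos L D x y).le) hw
  refine (sh_of_LC hh hη hμ (((Nice.const _).add (nice_En w)).pow _)
    (fun K _ => by have := En_nonneg hw K; positivity) hw htri hπ hD hn hy H).trans ?_
  rw [mul_assoc π, add_mul, div_eq_mul_inv, mul_assoc _ lam⁻¹]
  gcongr

/-- summed bias principle -/
theorem bi_of_BP {W : L.Mat → ℝ} (hW : Nice W) (hW0 : ∀ K, IsPort K → 0 ≤ W K)
    {w : L.P → L.P → ℝ} (hw : ∀ a b, 0 ≤ w a b) {S : Finset L.X} {a₀ b γ : L.X → ℝ}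
    (hb : ∀ y ∈ S, 0 < b y) {ε α : ℝ} (hα : 0 ≤ α) {k : L.X → L.X → ℝ} (hk : ∀ x y, 0 ≤ k x y)
    (H : ∀ y ∈ S, BPat lab E η μ W y (a₀ y) (b y) (γ y) ε α (k y)) :
    Bi lab E η μ S a₀ b γ W w ≤
      ε * ∑ y ∈ S, Iw lab E η (Function.update μ y (lift (η + γ y) (law (a₀ y) (b y))))
        (fun K => W K * Gam w K (y, true)) + α * Ak k w * Iw lab E η μ W := by
  have hI := Iw_nonneg (lab := lab) (E := E) (μ := μ) hη hW0
  have hu : ∀ y (ν : Measure ℂ), IsProbabilityMeasure ν →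
      ∀ x, IsProbabilityMeasure (Function.update μ y ν x) := fun y ν hν x => by
    rcases eq_or_ne x y with rfl | hx
    · rwa [Function.update_self]
    · rw [Function.update_of_ne hx]; exact hμ x
  refine le_trans (sum_le_sum (g := fun y => ε * Iw lab E η
    (Function.update μ y (lift (η + γ y) (law (a₀ y) (b y)))) (fun K => W K * Gam w K (y, true)) +
      α * (∑ q : L.P, k y q.1 * w (y, true) q) * Iw lab E η μ W) fun y hy => ?_) ?_
  · have := law_prob (a₀ y) (hb y hy)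
    rw [show (fun K => W K * Gam w K (y, true)) =
      fun K => W K * ∑ q, cc K (y, true) q * w (y, true) q from rfl,
      ← Iw_Gam hh hη (hu y _ inferInstance) hW, ← Iw_Gam hh hη (hu y _ inferInstance) hW,
      mul_sum, mul_sum, mul_sum, sum_mul, ← sum_add_distrib]
    exact sum_le_sum fun q _ => by
      nlinarith [mul_le_mul_of_nonneg_left (H y hy q) (hw (y, true) q)]
  · rw [sum_add_distrib, ← mul_sum, ← sum_mul, ← mul_sum]
    gcongr
    exact Ak_sub hk hw S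

/-- summed bias principle, tempered form; `ρ` = cost of conditioning on the open state -/
theorem bi_of_BP_psi {w : L.P → L.P → ℝ} (hw : ∀ a b, 0 ≤ w a b) {lam : ℝ} (hl : 0 < lam) {p : ℕ}
    (hp : 1 ≤ p) {S : Finset L.X} {a₀ b γ : L.X → ℝ} (hb : ∀ y ∈ S, 0 < b y) {ε α ρ : ℝ}
    (hε : 0 ≤ ε) (hα : 0 ≤ α) (hρ : 0 ≤ ρ) {k : L.X → L.X → ℝ} (hk : ∀ x y, 0 ≤ k x y)
    (hop : ∀ y ∈ S, ∀ F : L.Mat → ℝ, Nice F → (∀ K, IsPort K → 0 ≤ F K) →
      Iw lab E η (Function.update μ y (lift (η + γ y) (law (a₀ y) (b y)))) F ≤ ρ * Iw lab E η μ F)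
    (H : ∀ y ∈ S, BPat lab E η μ (fun K => (lam + En w K) ^ (p - 1)) y (a₀ y) (b y) (γ y) ε α (k y)) :
    Bi lab E η μ S a₀ b γ (fun K => (lam + En w K) ^ (p - 1)) w ≤
      (ε * ρ + α * Ak k w / lam) * Iw lab E η μ fun K => (lam + En w K) ^ p := by
  obtain ⟨h1, h2⟩ := psi_le (lab := lab) (E := E) hh hη hμ hw hl hp
  have hA := Ak_nonneg hk hw
  have hW : Nice fun K : L.Mat => (lam + En w K) ^ (p - 1) := ((Nice.const _).add (nice_En w)).pow _
  have hW0 : ∀ K : L.Mat, IsPort K → 0 ≤ (lam + En w K) ^ (p - 1) := fun K _ => by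
    have := En_nonneg hw K; positivity
  have h3 := sum_Gam_le (lab := lab) (E := E) hh hη hμ hW hW0 hw S id (n := 1) fun z => by
    have : (S.filter fun o => id o = z).card ≤ 1 :=
      card_le_one.2 fun a ha b hb => (mem_filter.1 ha).2.trans (mem_filter.1 hb).2.symm
    exact_mod_cast this
  have h4 := sum_le_sum fun y hy => hop y hy _ (hW.mul (nice_Gam w (y, true))) fun K hK =>
    mul_nonneg (hW0 K hK) (Gam_nonneg hw K _)
  rw [← mul_sum] at h4
  rw [one_mul] at h3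
  refine (bi_of_BP hh hη hμ hW hW0 hw hb hα hk H).trans ?_
  rw [add_mul, div_eq_mul_inv, mul_assoc _ lam⁻¹, mul_assoc ε]
  gcongr
  exact h4.trans (mul_le_mul_of_nonneg_left (h3.trans h1) hρ)

end Crest.Agent.N334.Sw
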